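import Vale.Agent.P106.AN.F837.StEof
import Vale.Agent.P106.AN275.Fin
import Vale.Agent.P106.H84.Cone
import Vale.Agent.P106.W840.Sum
import Vale.Agent.P106.W812.VolH

/-! # P106 / AN : the analysis layer is closed: `StCORE N → StE (2 + 2/N)` (helper837) -/

open MeasureTheory Complex Set

set_option linter.all false

namespace Vale.Agent.P106.AN.Top

theorem stKB : StKB := fun K h C1 hhK hC => Vale.Agent.P106.W.Vol.ktn_of_bes K h C1 hhK hC

theorem stAMP : StAMP := Vale.Agent.P106.AN275.stAMP Vale.Agent.P106.H84.stREP Vale.Agent.P106.H84.stORT Vale.Agent.P106.H84.stWI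

/-- **the analysis layer**: the estimate [E] of the truncated cone from the discrete multiscale theorem with the price `N` -/
theorem stE {N : ℝ} (hN : 1 ≤ N) (h : Vale.Agent.P106.W.StCORE N) : Vale.Agent.P106.W301.StE (2 + 2 / N) :=
  stE_core hN stAMP Vale.Agent.P106.W840.stWS h stKB

/-- the full theorem: `N = 2` gives the critical exponent `3` -/
theorem stE_three (h : Vale.Agent.P106.W.StCORE 2) : Vale.Agent.P106.W301.StE 3 := by
  have := stE (N := 2) (by norm_num) h
  norm_num at this
  exact this

end Vale.Agent.P106.AN.Top
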