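import Vale.Agent.P106.AN.F837.TopB
import Vale.Agent.P106.W301.StE

/-! # P106 / AN / TOP : from the discrete Katz-Tao condition to the Bessel condition (helper837) -/

open MeasureTheory Complex Set
open Vale.Agent.P122.C2 (Z2 fw fn par kids Cap)
open Vale.Agent.P106.W (Nd s0 tl Amp Cbx InB hh ry rz KTop StCORE)
open Vale.Agent.P106.W301 (Bes StE)
open scoped ENNReal NNReal FourierTransform

set_option linter.all false

namespace Vale.Agent.P106.AN.Top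

/-- the Bessel inequality on the data hyperplane gives the Katz-Tao condition of the pieces (owner of the proof: helper812) -/
def StKB : Prop := ∀ (K h : ℕ) (C1 : ℝ), h ≤ K → 1 ≤ C1 → ∃ C : ℝ, 0 ≤ C ∧ ∀ (M n : ℕ) (g : Z2 → E4 → ℂ) (Λ : ℝ),
  0 ≤ Λ → Bes M (h * n) K n g Λ → KTn (1 / 8) C1 M h K n g (C * 2 ^ (8 * n) * Λ)

/-- **[E]** for the price `N` -/
theorem stE_of {N : ℝ} (hN : 1 ≤ N) (hEn : StEn N) (hKB : StKB) : StE (2 + 2 / N) := by
  intro ε hε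
  have hN0 : 0 < N := by linarith
  set δ : ℝ := min (ε / 8) 1 with hδdef
  have hδ : 0 < δ := lt_min (by positivity) one_pos
  obtain ⟨K, h, hK, h2, hhδ, hen⟩ := hEn δ hδ
  have hKr : (1:ℝ) ≤ K := by exact_mod_cast hK
  have h2r : (2:ℝ) ≤ h := by exact_mod_cast h2
  have hhε : (h:ℝ) ≤ ε * K := hhδ.trans (by gcongr; exact (min_le_left _ _).trans (by linarith))
  have hhK : h ≤ K := by
    have h1 : (h:ℝ) ≤ 1 * K := hhδ.trans (by gcongr; exact min_le_right _ _)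
    rw [one_mul] at h1
    exact_mod_cast h1
  refine ⟨K, h, hK, hhε, ?_⟩
  intro M C0 hC0
  obtain ⟨C1, hC1, hen⟩ := hen M C0 hC0
  obtain ⟨C, hC, hen⟩ := hen (1 / 8) (by norm_num)
  obtain ⟨C2, hC2, hkb⟩ := hKB K h C1 hhK hC1
  refine ⟨C * C2 ^ (1 / N), by positivity, ?_⟩
  intro n ρ g Λ hD hΛ hB
  have hn0 : (0:ℝ) ≤ n := by positivity
  refine (hen n ρ g (C2 * 2 ^ (8 * n) * Λ) hD (by positivity) (hkb M n g Λ hΛ hB)).trans ?_
  gcongr ENNReal.ofReal ?_ * _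
  have e0 : (2 + 2 / N - 2) / 2 = 1 / N := by ring
  rw [e0, Real.mul_rpow (by positivity) hΛ, Real.mul_rpow hC2 (by positivity)]
  have e1 : ((2:ℝ) ^ (8 * n)) ^ (1 / N) ≤ 2 ^ (4 * δ * (K * n)) := by
    rw [← Real.rpow_natCast 2 (8 * n), ← Real.rpow_mul (by norm_num)]
    apply Real.rpow_le_rpow_of_exponent_le (by norm_num)
    push_cast
    have h3 : (8 * (n:ℝ)) * (1 / N) ≤ 8 * n := by
      have : 1 / N ≤ 1 := by
        rw [div_le_iff₀ hN0]
        linarith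
      have h8 : (0:ℝ) ≤ 8 * n := by positivity
      nlinarith
    have h4 : (2:ℝ) * n ≤ δ * K * n := by
      have : (2:ℝ) ≤ δ * K := h2r.trans hhδ
      gcongr
    linarith
  have e2 : (2:ℝ) ^ (δ * (K * n)) * 2 ^ (4 * δ * (K * n)) ≤ 2 ^ (ε * (K * n)) := by
    rw [← Real.rpow_add (by norm_num)]
    apply Real.rpow_le_rpow_of_exponent_le (by norm_num)
    have h5 : δ ≤ ε / 8 := min_le_left _ _
    have h6 : (0:ℝ) ≤ (K:ℝ) * n := by positivity
    nlinarith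
  calc C * 2 ^ (δ * (K * n)) * (C2 ^ (1 / N) * ((2:ℝ) ^ (8 * n)) ^ (1 / N) * Λ ^ (1 / N))
      ≤ C * 2 ^ (δ * (K * n)) * (C2 ^ (1 / N) * 2 ^ (4 * δ * (K * n)) * Λ ^ (1 / N)) := by gcongr
    _ = C * C2 ^ (1 / N) * (2 ^ (δ * (K * n)) * 2 ^ (4 * δ * (K * n))) * Λ ^ (1 / N) := by ring
    _ ≤ C * C2 ^ (1 / N) * 2 ^ (ε * (K * n)) * Λ ^ (1 / N) := by gcongr

/-- the composition of the wave side -/
theorem stE_core {N : ℝ} (hN : 1 ≤ N) (hAMP : StAMP) (hWS : StWS) (hCORE : StCORE N) (hKB : StKB) : StE (2 + 2 / N) :=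
  stE_of hN (stTOP N hN hAMP hWS hCORE) hKB

end Vale.Agent.P106.AN.Top
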