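import Vale.Agent.P106.AN.Lem
import Vale.Agent.P106.AN.Mono

/-! # P106 / AN / TOP : grouping of the top planks, energy (helper837; port of P122/AN273 of helper273) -/

open MeasureTheory Complex Set
open Vale.Agent.P122.C2 (Z2 fw fn par kids Cap)
open Vale.Agent.P106.W (Nd s0 tl Amp Cbx InB hh ry rz KTop StCORE)
open scoped ENNReal NNReal FourierTransform

set_option linter.all false

namespace Vale.Agent.P106.AN.Top

/-- `Σ ∫ ≤ ∫ Σ` without measurability -/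
theorem sum_lint_le {ι : Type*} (s : Finset ι) (f : ι → E4 → ℝ≥0∞) :
    ∑ i ∈ s, ∫⁻ z, f i z ≤ ∫⁻ z, ∑ i ∈ s, f i z := by
  classical
  induction s using Finset.induction_on with
  | empty => simp
  | insert i s hi ih =>
    rw [Finset.sum_insert hi]
    calc (∫⁻ z, f i z) + ∑ j ∈ s, ∫⁻ z, f j z ≤ (∫⁻ z, f i z) + ∫⁻ z, ∑ j ∈ s, f j z := by gcongr
      _ ≤ ∫⁻ z, (f i z + ∑ j ∈ s, f j z) := le_lintegral_add _ _
      _ = _ := by
          congr 1
          ext z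
          rw [Finset.sum_insert hi]

theorem desc_self (K n : ℕ) (τ : Z2) : desc K n K τ = {τ} := by
  unfold desc
  ext θ
  rw [Fintype.mem_piFinset, Finset.mem_singleton]
  constructor
  · intro h
    funext k
    have h1 := Finset.mem_Ico.1 (h k)
    simp only [Nat.sub_self, Nat.zero_mul, pow_zero, one_mul] at h1
    omega
  · rintro rfl k
    simp

theorem pie_self (K n : ℕ) (g : Z2 → E4 → ℂ) (τ : Z2) (z : E4) : pie K n g K τ z = 𝓕⁻ (g τ) z := by
  unfold pie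
  rw [desc_self, Finset.sum_singleton]

/-- what is known of the top amplitudes -/
structure Tp (C : ℝ) (M h K n : ℕ) (g : Z2 → E4 → ℂ) (a : Nd → ℝ) : Prop where
  supp : ∀ S, a S ≠ 0 → S.b.T = 0 ∧ Cap n K S.b.τ ∧ (∀ k, |(S.b.o k : ℝ)| ≤ C * 2 ^ (K * n)) ∧
    |(S.w : ℝ)| * 2 ^ (h * n) ≤ C * 2 ^ (2 * K * n)
  top : ∀ S, ENNReal.ofReal (a S ^ 2) ≤ ENNReal.ofReal C * am2 M h n K S (pie K n g K S.b.τ)

/-- the node of the cap `τ`, horizontal index `q.1`, index `q.2` of the null coordinate -/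
def nd (τ : Z2) (q : Z2 × ℤ) : Nd := ⟨⟨τ, q.1, 0⟩, q.2⟩

/-- grouping by the caps -/
theorem group (C : ℝ) (M h K n : ℕ) (g : Z2 → E4 → ℂ) (a : Nd → ℝ) (hT : Tp C M h K n g a) (U : Finset Nd)
    (V : Finset Z2) (W : Z2 → E4 → ℝ≥0∞) (hV : ∀ S ∈ U, a S ≠ 0 → S.b.τ ∈ V)
    (hW : ∀ τ ∈ V, ∀ O : Finset (Z2 × ℤ), (∀ q ∈ O, nd τ q ∈ U ∧ a (nd τ q) ≠ 0) →
      ∀ z, ∑ q ∈ O, wN M h n K (nd τ q) z ≤ W τ z) :
    ∑ S ∈ U, ENNReal.ofReal (a S ^ 2) ≤ ENNReal.ofReal C * (ENNReal.ofReal (((2:ℝ) ^ (h * n + 4 * K * n))⁻¹) *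
      ∑ τ ∈ V, ∫⁻ z, ‖𝓕⁻ (g τ) z‖ₑ ^ 2 * W τ z) := by
  classical
  have e1 : ∑ S ∈ U, ENNReal.ofReal (a S ^ 2) = ∑ S ∈ U.filter (fun S => a S ≠ 0), ENNReal.ofReal (a S ^ 2) := by
    rw [Finset.sum_filter]
    refine Finset.sum_congr rfl fun S _ => ?_
    by_cases h0 : a S = 0
    · simp [h0]
    · simp [h0]
  rw [e1]
  have hmaps : ∀ S ∈ U.filter (fun S => a S ≠ 0), S.b.τ ∈ V := by
    intro S hS
    rw [Finset.mem_filter] at hS
    exact hV S hS.1 hS.2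
  calc ∑ S ∈ U.filter (fun S => a S ≠ 0), ENNReal.ofReal (a S ^ 2)
      ≤ ∑ S ∈ U.filter (fun S => a S ≠ 0), ENNReal.ofReal C * am2 M h n K S (pie K n g K S.b.τ) :=
        Finset.sum_le_sum fun S _ => hT.top S
    _ = ∑ τ ∈ V, ∑ S ∈ (U.filter (fun S => a S ≠ 0)) with S.b.τ = τ,
          ENNReal.ofReal C * am2 M h n K S (pie K n g K S.b.τ) := (Finset.sum_fiberwise_of_maps_to hmaps _).symm
    _ ≤ ∑ τ ∈ V, ENNReal.ofReal C * (ENNReal.ofReal (((2:ℝ) ^ (h * n + 4 * K * n))⁻¹) *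
          ∫⁻ z, ‖𝓕⁻ (g τ) z‖ₑ ^ 2 * W τ z) := by
        refine Finset.sum_le_sum fun τ hτ => ?_
        set B := (U.filter (fun S => a S ≠ 0)).filter (fun S => S.b.τ = τ) with hB
        have hBm : ∀ S ∈ B, S ∈ U ∧ a S ≠ 0 ∧ S.b.τ = τ ∧ S.b.T = 0 := by
          intro S hS
          rw [hB, Finset.mem_filter, Finset.mem_filter] at hS
          exact ⟨hS.1.1, hS.1.2, hS.2, (hT.supp S hS.1.2).1⟩
        have hBe : ∀ S ∈ B, S = nd τ (S.b.o, S.w) := by
          intro S hS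
          obtain ⟨_, _, h3, h4⟩ := hBm S hS
          obtain ⟨⟨t, o, T⟩, w⟩ := S
          simp only at h3 h4
          subst h3 h4
          rfl
        calc ∑ S ∈ B, ENNReal.ofReal C * am2 M h n K S (pie K n g K S.b.τ)
            = ENNReal.ofReal C * ∑ S ∈ B, am2 M h n K S (pie K n g K S.b.τ) := by rw [Finset.mul_sum]
          _ = ENNReal.ofReal C * (ENNReal.ofReal (((2:ℝ) ^ (h * n + 4 * K * n))⁻¹) *
                ∑ S ∈ B, ∫⁻ z, ‖𝓕⁻ (g τ) z‖ₑ ^ 2 * wN M h n K S z) := by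
              congr 1
              rw [Finset.mul_sum]
              refine Finset.sum_congr rfl fun S hS => ?_
              unfold am2
              congr 1
              refine lintegral_congr fun z => ?_
              rw [pie_self, (hBm S hS).2.2.1]
          _ ≤ ENNReal.ofReal C * (ENNReal.ofReal (((2:ℝ) ^ (h * n + 4 * K * n))⁻¹) *
                ∫⁻ z, ‖𝓕⁻ (g τ) z‖ₑ ^ 2 * W τ z) := by
              gcongr
              refine (sum_lint_le _ _).trans ?_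
              refine lintegral_mono fun z => ?_
              rw [← Finset.mul_sum]
              gcongr
              have e2 : ∑ S ∈ B, wN M h n K S z = ∑ q ∈ B.image (fun S => (S.b.o, S.w)), wN M h n K (nd τ q) z := by
                rw [Finset.sum_image]
                · refine Finset.sum_congr rfl fun S hS => ?_
                  conv_lhs => rw [hBe S hS]
                · intro S hS S' hS' hSS
                  rw [hBe S hS, hBe S' hS']
                  simp only at hSS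
                  rw [hSS]
              rw [e2]
              refine hW τ hτ _ ?_ z
              intro q hq
              obtain ⟨S, hS, rfl⟩ := Finset.mem_image.1 hq
              rw [← hBe S hS]
              exact ⟨(hBm S hS).1, (hBm S hS).2.1⟩
    _ = _ := by rw [← Finset.mul_sum, ← Finset.mul_sum]

theorem norm_le4 (x : E4) : ‖x‖ ≤ |x 0| + |x 1| + |x 2| + |x 3| := by
  rw [EuclideanSpace.norm_eq, Fin.sum_univ_four]
  rw [Real.sqrt_le_left (by positivity)]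
  simp only [Real.norm_eq_abs]
  nlinarith [abs_nonneg (x 0), abs_nonneg (x 1), abs_nonneg (x 2), abs_nonneg (x 3), mul_nonneg (abs_nonneg (x 0)) (abs_nonneg (x 1)),
    mul_nonneg (abs_nonneg (x 0)) (abs_nonneg (x 2)), mul_nonneg (abs_nonneg (x 1)) (abs_nonneg (x 2)),
    mul_nonneg (abs_nonneg (x 0)) (abs_nonneg (x 3)), mul_nonneg (abs_nonneg (x 1)) (abs_nonneg (x 3)),
    mul_nonneg (abs_nonneg (x 2)) (abs_nonneg (x 3))]

/-- the norm is controlled by the gauge of the cube, slopes at most one -/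
theorem norm_le_gau {s : Fin 2 → ℝ} (h0 : |s 0| ≤ 1) (h1 : |s 1| ≤ 1) (z : E4) :
    ‖z‖ ≤ 6 * (|nl s z| + |dv s z 0| + |dv s z 1| + |z 2|) := by
  have h3 := norm_le4 z
  have h4 : |z 0| ≤ |dv s z 0| + |z 2| := by
    have e : z 0 = dv s z 0 + s 0 * z 2 := by rw [dv_zero]; ring
    calc |z 0| = |dv s z 0 + s 0 * z 2| := by rw [← e]
      _ ≤ |dv s z 0| + |s 0 * z 2| := abs_add_le _ _
      _ ≤ _ := by rw [abs_mul]; nlinarith [abs_nonneg (z 2)]
  have h5 : |z 1| ≤ |dv s z 1| + |z 2| := by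
    have e : z 1 = dv s z 1 + s 1 * z 2 := by rw [dv_one]; ring
    calc |z 1| = |dv s z 1 + s 1 * z 2| := by rw [← e]
      _ ≤ |dv s z 1| + |s 1 * z 2| := abs_add_le _ _
      _ ≤ _ := by rw [abs_mul]; nlinarith [abs_nonneg (z 2)]
  have h6 : |z 3| ≤ |nl s z| + |z 0| + |z 1| + |z 2| := by
    have e : z 3 = nl s z + (s 0 * z 0 + s 1 * z 1 - (s 0 ^ 2 + s 1 ^ 2) / 2 * z 2) := by unfold nl; ring
    have e1 : |s 0 * z 0 + s 1 * z 1 - (s 0 ^ 2 + s 1 ^ 2) / 2 * z 2| ≤ |z 0| + |z 1| + |z 2| := by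
      have f0 : |s 0 * z 0| ≤ |z 0| := by rw [abs_mul]; nlinarith [abs_nonneg (z 0)]
      have f1 : |s 1 * z 1| ≤ |z 1| := by rw [abs_mul]; nlinarith [abs_nonneg (z 1)]
      have f2 : |(s 0 ^ 2 + s 1 ^ 2) / 2 * z 2| ≤ |z 2| := by
        rw [abs_mul]
        have g0 : s 0 ^ 2 ≤ 1 := by rw [← sq_abs]; nlinarith [abs_nonneg (s 0)]
        have g1 : s 1 ^ 2 ≤ 1 := by rw [← sq_abs]; nlinarith [abs_nonneg (s 1)]
        have g2 : |(s 0 ^ 2 + s 1 ^ 2) / 2| ≤ 1 := by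
          rw [abs_of_nonneg (by positivity)]
          linarith
        nlinarith [abs_nonneg (z 2)]
      calc |s 0 * z 0 + s 1 * z 1 - (s 0 ^ 2 + s 1 ^ 2) / 2 * z 2|
          ≤ |s 0 * z 0 + s 1 * z 1| + |(s 0 ^ 2 + s 1 ^ 2) / 2 * z 2| := abs_sub _ _
        _ ≤ (|s 0 * z 0| + |s 1 * z 1|) + |(s 0 ^ 2 + s 1 ^ 2) / 2 * z 2| := by
            gcongr
            exact abs_add_le _ _
        _ ≤ _ := by linarith
    calc |z 3| = |nl s z + (s 0 * z 0 + s 1 * z 1 - (s 0 ^ 2 + s 1 ^ 2) / 2 * z 2)| := by rw [← e]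
      _ ≤ |nl s z| + |s 0 * z 0 + s 1 * z 1 - (s 0 ^ 2 + s 1 ^ 2) / 2 * z 2| := abs_add_le _ _
      _ ≤ _ := by linarith
  have := abs_nonneg (nl s z)
  have := abs_nonneg (dv s z 0)
  have := abs_nonneg (dv s z 1)
  have := abs_nonneg (z 2)
  linarith

/-- the weight of the cube dominates the weight of a sheared cube of slope at most one -/
theorem wg_cube_le (M : ℕ) {R : ℝ} (hR : 0 < R) {s : Fin 2 → ℝ} (h0 : |s 0| ≤ 1) (h1 : |s 1| ≤ 1) (z : E4) :
    wg M 0 R R R R s z ≤ ENNReal.ofReal (6 ^ M) * ENNReal.ofReal (((1 + ‖z‖ / R) ^ M)⁻¹) := by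
  unfold wg
  rw [← ENNReal.ofReal_mul (by positivity)]
  apply ENNReal.ofReal_le_ofReal
  have hg : 0 ≤ gau 0 R R R R s z := gau_nonneg hR hR hR hR s z
  have key : 1 + ‖z‖ / R ≤ 6 * (1 + gau 0 R R R R s z) := by
    have h2 := norm_le_gau h0 h1 z
    have h6 : gau 0 R R R R s z = (|nl s z| + |dv s z 0| + |dv s z 1| + |z 2|) / R := by
      unfold gau
      rw [fw_zero_frame, fn_zero_frame]
      ring
    rw [h6]
    have h7 : ‖z‖ / R ≤ 6 * ((|nl s z| + |dv s z 0| + |dv s z 1| + |z 2|) / R) := by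
      rw [← mul_div_assoc]
      exact div_le_div_of_nonneg_right h2 hR.le
    linarith
  have hz : 0 ≤ ‖z‖ / R := by positivity
  rw [inv_le_iff_one_le_mul₀ (by positivity)]
  have h8 : (1 + ‖z‖ / R) ^ M ≤ 6 ^ M * (1 + gau 0 R R R R s z) ^ M := by
    rw [← mul_pow]
    exact pow_le_pow_left₀ (by positivity) key M
  have h9 : (0:ℝ) < (1 + ‖z‖ / R) ^ M := by positivity
  calc (1:ℝ) = (1 + ‖z‖ / R) ^ M * ((1 + ‖z‖ / R) ^ M)⁻¹ := (mul_inv_cancel₀ h9.ne').symm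
    _ ≤ (6 ^ M * (1 + gau 0 R R R R s z) ^ M) * ((1 + ‖z‖ / R) ^ M)⁻¹ := by gcongr
    _ = _ := by ring

theorem slope_le {n K : ℕ} {τ : Z2} (hcap : Cap n K τ) (k : Fin 2) : |s0 n K τ k| ≤ 1 := by
  have h1 := hcap k
  unfold s0
  have h2 : (0:ℝ) ≤ (τ k : ℝ) := by exact_mod_cast h1.1
  have h3 : (τ k : ℝ) ≤ 2 ^ (K * n) := by exact_mod_cast h1.2.le
  rw [abs_of_nonneg (by positivity)]
  exact div_le_one_of_le₀ h3 (by positivity)

/-- [energy] -/
theorem energy (hWS : StWS) (M : ℕ) (C : ℝ) (hC : 1 ≤ C) : ∃ Ce : ℝ, 0 ≤ Ce ∧ ∀ (h K n : ℕ) (g : Z2 → E4 → ℂ) (a : Nd → ℝ),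
    h ≤ 2 * K → Tp C (M + 4) h K n g a → ∀ U : Finset Nd,
    ENNReal.ofReal (∑ S ∈ U, a S ^ 2) ≤ ENNReal.ofReal (Ce * ((2:ℝ) ^ (h * n + 4 * K * n))⁻¹) * enw M K n g := by
  classical
  obtain ⟨Cw, hCw, hws⟩ := hWS M (3 * C) (by linarith)
  refine ⟨C * (Cw * 6 ^ M), by positivity, ?_⟩
  intro h K n g a hhK hT U
  have hN : (0:ℝ) < 2 ^ (K * n) := by positivity
  set N : ℝ := 2 ^ (K * n) with hNdef
  have hN1 : (1:ℝ) ≤ N := by rw [hNdef]; exact one_le_pow₀ (by norm_num)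
  have hR : (2:ℝ) ^ (2 * K * n) = N ^ 2 := by rw [hNdef, ← pow_mul]; congr 1; ring
  have hH : (0:ℝ) < 2 ^ (h * n) := by positivity
  have hHR : (2:ℝ) ^ (h * n) ≤ N ^ 2 := by
    rw [← hR]
    exact pow_le_pow_right₀ (by norm_num) (Nat.mul_le_mul_right _ hhK)
  have hg := group C (M + 4) h K n g a hT U (desc K n 0 0)
    (fun τ z => ENNReal.ofReal (Cw * 6 ^ M) * ENNReal.ofReal (((1 + ‖z‖ / 2 ^ (2 * K * n)) ^ M)⁻¹)) ?_ ?_
  · rw [ENNReal.ofReal_sum_of_nonneg fun S _ => sq_nonneg _]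
    refine hg.trans (le_of_eq ?_)
    have e1 : ∑ τ ∈ desc K n 0 0, ∫⁻ z, ‖𝓕⁻ (g τ) z‖ₑ ^ 2 *
        (ENNReal.ofReal (Cw * 6 ^ M) * ENNReal.ofReal (((1 + ‖z‖ / 2 ^ (2 * K * n)) ^ M)⁻¹)) =
        ENNReal.ofReal (Cw * 6 ^ M) * enw M K n g := by
      unfold enw
      rw [Finset.mul_sum]
      refine Finset.sum_congr rfl fun τ _ => ?_
      rw [← lintegral_const_mul' _ _ ENNReal.ofReal_ne_top]
      refine lintegral_congr fun z => ?_
      ring
    rw [e1, ← mul_assoc, ← mul_assoc, ← ENNReal.ofReal_mul (by linarith), ← ENNReal.ofReal_mul (by positivity)]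
    congr 2
    ring
  · intro S _ hS
    obtain ⟨_, hcap, _⟩ := hT.supp S hS
    unfold desc
    rw [Fintype.mem_piFinset]
    intro k
    rw [Finset.mem_Ico]
    have := hcap k
    simp only [Nat.sub_zero, Pi.zero_apply, mul_zero, zero_add, mul_one]
    exact this
  · intro τ hτ O hO z
    rcases O.eq_empty_or_nonempty with rfl | ⟨o0, ho0⟩
    · simp
    have hcap : Cap n K τ := (hT.supp _ (hO o0 ho0).2).2.1
    have hs : ∀ k, |s0 n K τ k| ≤ 1 := slope_le hcap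
    have h4 := hws 0 (2 ^ (h * n)) N (N ^ 2) (N ^ 2) (N ^ 2) (N ^ 2) (s0 n K τ) (s0 n K τ) O 0 0 hH hN (by positivity)
      hHR ?_ ?_ ?_ ?_ ?_ ?_ ?_ ?_ z
    · have e2 : ∑ q ∈ O, wN (M + 4) h n K (nd τ q) z = ∑ q ∈ O, wg (M + 4) 0 (2 ^ (h * n)) N N (N ^ 2) (s0 n K τ)
          (z - pt (2 ^ (h * n)) N 0 (s0 n K τ) q.1 q.2) := by
        refine Finset.sum_congr rfl fun q _ => ?_
        unfold wN bp nd
        simp only [Int.cast_zero, mul_zero]
        rw [hR]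
      rw [e2]
      refine h4.trans ?_
      rw [sub_zero, ENNReal.ofReal_mul hCw, mul_assoc]
      gcongr
      rw [hR]
      exact wg_cube_le M (by positivity) (hs 0) (hs 1) z
    · nlinarith
    · nlinarith
    · simp [fw]
      positivity
    · simp [fn]
      positivity
    · simp
      positivity
    · simp
      positivity
    · simp
      positivity
    · intro q hq
      obtain ⟨_, _, h5, h5w⟩ := hT.supp _ (hO q hq).2
      simp only [nd] at h5 h5w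
      rw [sub_zero]
      unfold gau
      rw [fw_zero_frame, fn_zero_frame, nl_pt, dv_zero, dv_one, pt_zero, pt_one, pt_two]
      have h6 : ∀ k, |N * (q.1 k : ℝ) - s0 n K τ k * 0| / N ^ 2 ≤ C := by
        intro k
        rw [mul_zero, sub_zero, abs_mul, abs_of_pos hN, div_le_iff₀ (by positivity)]
        have := h5 k
        nlinarith
      have h7 : |(2:ℝ) ^ (h * n) * (q.2 : ℝ)| / N ^ 2 ≤ C := by
        rw [abs_mul, abs_of_pos hH, div_le_iff₀ (by positivity), ← hR]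
        linarith
      have := h6 0
      have := h6 1
      simp only [abs_zero, zero_div, add_zero]
      linarith

end Vale.Agent.P106.AN.Top
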