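import Vale.Agent.P106.AN.F837.TopA

/-! # P106 / AN / TOP : the estimate on the half cube (helper837; port of P122/AN273 of helper273) -/

open MeasureTheory Complex Set
open Vale.Agent.P122.C2 (Z2 fw fn par kids Cap)
open Vale.Agent.P106.W (Nd s0 tl Amp Cbx InB hh ry rz KTop StCORE)
open scoped ENNReal NNReal FourierTransform

set_option linter.all false

namespace Vale.Agent.P106.AN.Top

/-- the class of boxes is monotone in `c` -/
theorem ok_mono {c c' : ℝ} (h : c ≤ c') {B : Cbx} {r H : ℝ} (hB : B.ok c r H) : B.ok c' r H :=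
  ⟨hB.r1, hB.u12, hB.u2, hB.α2.trans h, hB.κ2.trans h, hB.αH, hB.κH⟩

theorem vol_nonneg {c : ℝ} {B : Cbx} {r H : ℝ} (hr : 0 < r) (hB : B.ok c r H) : 0 ≤ B.vol r H := by
  have h1 : 0 < B.u1 := hr.trans_le hB.r1
  have h2 : 0 < B.u2 := h1.trans_le hB.u12
  unfold Cbx.vol
  have : (0:ℝ) ≤ max 1 (B.u2 ^ 2 / H) := le_trans zero_le_one (le_max_left _ _)
  positivity

/-- [KTop] from `KTn` -/
theorem ktop {C c C1 : ℝ} {M h K n : ℕ} {g : Z2 → E4 → ℂ} {a : Nd → ℝ} {Λ : ℝ} (hC : 0 ≤ C) (hΛ : 0 ≤ Λ)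
    (hT : Tp C M h K n g a) (hC1 : C ≤ C1) (hK : KTn c C1 M h K n g Λ) (B : Cbx) (U : Finset Nd)
    (hB : B.ok c ((1 / 2 : ℝ) ^ (K * n)) (hh n h K)) (hU : ∀ S ∈ U, InB n h K B S) :
    ∑ S ∈ U, a S ^ 2 ≤ C * Λ * B.vol ((1 / 2 : ℝ) ^ (K * n)) (hh n h K) := by
  classical
  have hv := vol_nonneg (by positivity) hB
  have e1 : ∑ S ∈ U, a S ^ 2 = ∑ S ∈ U.filter (fun S => a S ≠ 0), a S ^ 2 := by
    rw [Finset.sum_filter]
    refine Finset.sum_congr rfl fun S _ => ?_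
    by_cases h0 : a S = 0
    · simp [h0]
    · simp [h0]
  have h1 := hK B (U.filter fun S => a S ≠ 0) hB (by
    intro S hS
    rw [Finset.mem_filter] at hS
    obtain ⟨k1, k2, k3, k4⟩ := hT.supp S hS.2
    refine ⟨hU S hS.1, k1, k2, fun k => (k3 k).trans ?_, k4.trans ?_⟩
    · gcongr
    · gcongr)
  have h2 : ENNReal.ofReal (∑ S ∈ U, a S ^ 2) ≤ ENNReal.ofReal (C * Λ * B.vol ((1 / 2 : ℝ) ^ (K * n)) (hh n h K)) := by
    rw [e1, ENNReal.ofReal_sum_of_nonneg fun S _ => sq_nonneg _]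
    calc ∑ S ∈ U.filter (fun S => a S ≠ 0), ENNReal.ofReal (a S ^ 2)
        ≤ ∑ S ∈ U.filter (fun S => a S ≠ 0), ENNReal.ofReal C * am2 M h n K S (pie K n g K S.b.τ) :=
          Finset.sum_le_sum fun S _ => hT.top S
      _ = ENNReal.ofReal C * ∑ S ∈ U.filter (fun S => a S ≠ 0), am2 M h n K S (pie K n g K S.b.τ) := by
          rw [Finset.mul_sum]
      _ ≤ ENNReal.ofReal C * ENNReal.ofReal (Λ * B.vol ((1 / 2 : ℝ) ^ (K * n)) (hh n h K)) := by gcongr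
      _ = _ := by rw [← ENNReal.ofReal_mul hC, mul_assoc]
  exact (ENNReal.ofReal_le_ofReal_iff (by positivity)).1 h2

/-- larger exponents give smaller amplitudes -/
theorem am2_anti {M M' : ℕ} (hM : M ≤ M') (h n i : ℕ) (S : Nd) (f : E4 → ℂ) : am2 M' h n i S f ≤ am2 M h n i S f := by
  unfold am2 wN
  gcongr with z
  exact wg_anti hM (by positivity) (by positivity) (by positivity) (by positivity) _ _

/-- smaller exponents are allowed -/
theorem Tp.anti {C : ℝ} {M M' h K n : ℕ} {g : Z2 → E4 → ℂ} {a : Nd → ℝ} (hM : M ≤ M') (hT : Tp C M' h K n g a) :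
    Tp C M h K n g a := ⟨hT.supp, fun S => (hT.top S).trans (by gcongr; exact am2_anti hM _ _ _ _ _)⟩

/-- the box around one plank -/
noncomputable def box1 (h n K : ℕ) (S : Nd) : Cbx := ⟨0, 1, 1, 0, 0, ry n K S, s0 n K S.b.τ, rz n h K S⟩

theorem box1_ok (h n K : ℕ) (S : Nd) {c : ℝ} (hc : 0 ≤ c) : (box1 h n K S).ok c ((1 / 2 : ℝ) ^ (K * n)) (hh n h K) where
  r1 := pow_le_one₀ (by norm_num) (by norm_num)
  u12 := le_rfl
  u2 := le_rfl
  α2 := by simp [box1, hc]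
  κ2 := by simp [box1, hc]
  αH := by simp [box1]
  κH := by simp [box1]

theorem box1_in (h n K : ℕ) (S : Nd) : InB n h K (box1 h n K S) S := by
  unfold InB Cbx.In box1
  simp [fn]

theorem lint_biUnion_le {ι : Type*} (s : Finset ι) (A : ι → Set E4) (f : E4 → ℝ≥0∞) :
    ∫⁻ z in ⋃ i ∈ s, A i, f z ≤ ∑ i ∈ s, ∫⁻ z in A i, f z := by
  classical
  induction s using Finset.induction_on with
  | empty => simp
  | insert i s hi ih =>
    rw [Finset.sum_insert hi, Finset.set_biUnion_insert]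
    exact (lintegral_union_le f _ _).trans (by gcongr)

/-- the half cube -/
def Hf (K n : ℕ) : Set E4 := {z | (∀ i, |z i| ≤ 2 ^ (2 * K * n)) ∧ 0 ≤ z 2}

/-- the cells of the half cube -/
noncomputable def XX (h K n : ℕ) : Finset Nd :=
  ((((Fintype.piFinset fun _ : Fin 2 => Finset.Icc (-(2 ^ (2 * K * n)) : ℤ) (2 ^ (2 * K * n))) ×ˢ
    Finset.Ico (0:ℤ) (2 ^ (2 * K * n))) ×ˢ Finset.Icc (-(2 * 2 ^ (2 * K * n)) : ℤ) (2 * 2 ^ (2 * K * n))).filter
      fun q => |q.2| * 2 ^ (h * n) ≤ 2 * 2 ^ (2 * K * n)).image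
      fun q => (⟨⟨0, q.1.1, q.1.2⟩, q.2⟩ : Nd)

theorem mem_XX {h K n : ℕ} {x : Nd} : x ∈ XX h K n ↔
    x.b.τ = 0 ∧ 0 ≤ x.b.T ∧ x.b.T < 2 ^ (2 * K * n) ∧ (∀ k, |x.b.o k| ≤ 2 ^ (2 * K * n)) ∧
      |x.w| * 2 ^ (h * n) ≤ 2 * 2 ^ (2 * K * n) := by
  unfold XX
  rw [Finset.mem_image]
  constructor
  · rintro ⟨q, hq, rfl⟩
    rw [Finset.mem_filter, Finset.mem_product, Finset.mem_product, Fintype.mem_piFinset, Finset.mem_Ico] at hq
    refine ⟨rfl, hq.1.1.2.1, hq.1.1.2.2, fun k => ?_, hq.2⟩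
    have := Finset.mem_Icc.1 (hq.1.1.1 k)
    exact abs_le.2 this
  · rintro ⟨h1, h2, h3, h4, h5⟩
    refine ⟨((x.b.o, x.b.T), x.w), ?_, ?_⟩
    · rw [Finset.mem_filter, Finset.mem_product, Finset.mem_product, Fintype.mem_piFinset, Finset.mem_Ico]
      refine ⟨⟨⟨fun k => Finset.mem_Icc.2 (abs_le.1 (h4 k)), h2, h3⟩, ?_⟩, h5⟩
      rw [Finset.mem_Icc, ← abs_le]
      have h6 : (1:ℤ) ≤ 2 ^ (h * n) := one_le_pow₀ (by norm_num)
      have h7 := abs_nonneg x.w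
      nlinarith
    · obtain ⟨⟨t, o, T⟩, w⟩ := x
      simp only at h1
      subst h1
      rfl

theorem Hf_subset {h K : ℕ} (hhK : h ≤ 2 * K) (n : ℕ) : Hf K n ⊆ ⋃ x ∈ XX h K n, cube h n x := by
  intro z hz
  obtain ⟨hz1, h2⟩ := hz
  have h0 := hz1 0
  have h1 := hz1 1
  have h3 := (abs_le.1 (hz1 2)).2
  have h4 := hz1 3
  have hRi : (1:ℤ) ≤ 2 ^ (2 * K * n) := one_le_pow₀ (by norm_num)
  have hcast : ((2 ^ (2 * K * n) : ℤ) : ℝ) = 2 ^ (2 * K * n) := by push_cast; rfl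
  have hH : (0:ℝ) < 2 ^ (h * n) := by positivity
  have hHR : (2:ℝ) ^ (h * n) ≤ 2 ^ (2 * K * n) := pow_le_pow_right₀ (by norm_num) (Nat.mul_le_mul_right _ hhK)
  have hHc : ((2 ^ (h * n) : ℤ) : ℝ) = 2 ^ (h * n) := by push_cast; rfl
  have hw : |⌊z 3 / 2 ^ (h * n)⌋| * 2 ^ (h * n) ≤ 2 * (2:ℤ) ^ (2 * K * n) := by
    have hA : |((⌊z 3 / 2 ^ (h * n)⌋ : ℤ) : ℝ)| * 2 ^ (h * n) ≤ 2 * 2 ^ (2 * K * n) := by
      have f1 := Int.floor_le (z 3 / 2 ^ (h * n))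
      have f2 := Int.lt_floor_add_one (z 3 / 2 ^ (h * n))
      have f3 : |((⌊z 3 / 2 ^ (h * n)⌋ : ℤ) : ℝ)| ≤ |z 3 / 2 ^ (h * n)| + 1 := by
        rw [abs_le]
        constructor
        · have := neg_abs_le (z 3 / 2 ^ (h * n)); linarith
        · have := le_abs_self (z 3 / 2 ^ (h * n)); linarith
      rw [abs_div, abs_of_pos hH] at f3
      calc |((⌊z 3 / 2 ^ (h * n)⌋ : ℤ) : ℝ)| * 2 ^ (h * n) ≤ (|z 3| / 2 ^ (h * n) + 1) * 2 ^ (h * n) := by gcongr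
        _ = |z 3| + 2 ^ (h * n) := by field_simp
        _ ≤ _ := by linarith
    have hB : ((|⌊z 3 / 2 ^ (h * n)⌋| * 2 ^ (h * n) : ℤ) : ℝ) ≤ ((2 * (2:ℤ) ^ (2 * K * n) : ℤ) : ℝ) := by
      push_cast
      exact hA
    exact_mod_cast hB
  set R : ℤ := 2 ^ (2 * K * n) with hR
  rw [← hcast] at h0 h1 h3
  rw [Set.mem_iUnion₂]
  refine ⟨⟨⟨0, ![⌊z 0⌋, ⌊z 1⌋], min ⌊z 2⌋ (R - 1)⟩, ⌊z 3 / 2 ^ (h * n)⌋⟩, ?_, ?_⟩
  · rw [mem_XX]
    refine ⟨rfl, ?_, ?_, ?_, hw⟩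
    · simp only
      have : 0 ≤ ⌊z 2⌋ := Int.floor_nonneg.2 h2
      omega
    · simp only
      omega
    · have hh : ∀ t : ℝ, |t| ≤ (R:ℝ) → |⌊t⌋| ≤ R := by
        intro t ht
        rw [abs_le] at ht ⊢
        constructor
        · rw [Int.le_floor]
          push_cast
          exact ht.1
        · have : ⌊t⌋ ≤ ⌊((R:ℤ):ℝ)⌋ := Int.floor_le_floor ht.2
          rwa [Int.floor_intCast] at this
      intro k
      fin_cases k
      · exact hh _ h0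
      · exact hh _ h1
  · unfold cube
    simp only [Set.mem_setOf_eq, Matrix.cons_val_zero, Matrix.cons_val_one]
    refine ⟨⟨Int.floor_le _, (Int.lt_floor_add_one _).le⟩, ⟨Int.floor_le _, (Int.lt_floor_add_one _).le⟩, ⟨?_, ?_⟩, ?_, ?_⟩
    · exact le_trans (by exact_mod_cast min_le_left _ _) (Int.floor_le _)
    · rcases le_total ⌊z 2⌋ (R - 1) with hc | hc
      · rw [min_eq_left hc]
        exact (Int.lt_floor_add_one _).le
      · rw [min_eq_right hc]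
        push_cast
        linarith
    · have := Int.floor_le (z 3 / 2 ^ (h * n))
      rw [le_div_iff₀ hH] at this
      linarith
    · have := (Int.lt_floor_add_one (z 3 / 2 ^ (h * n))).le
      rw [div_le_iff₀ hH] at this
      linarith

/-- volume of a cell -/
theorem vol_cube (h n : ℕ) (x : Nd) : volume (cube h n x) ≤ ENNReal.ofReal (2 ^ (h * n)) := by
  have hH : (0:ℝ) < 2 ^ (h * n) := by positivity
  set lo : Fin 4 → ℝ := ![(x.b.o 0 : ℝ), (x.b.o 1 : ℝ), (x.b.T : ℝ), 2 ^ (h * n) * (x.w : ℝ)] with hlo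
  set hi : Fin 4 → ℝ := ![(x.b.o 0 : ℝ) + 1, (x.b.o 1 : ℝ) + 1, (x.b.T : ℝ) + 1, 2 ^ (h * n) * ((x.w : ℝ) + 1)] with hhi
  have e1 : cube h n x ⊆ (MeasurableEquiv.toLp 2 (Fin 4 → ℝ)).symm ⁻¹' (Set.Icc lo hi) := by
    intro z hz
    obtain ⟨⟨a1, a2⟩, ⟨b1, b2⟩, ⟨c1, c2⟩, ⟨d1, d2⟩⟩ := hz
    rw [Set.mem_preimage, Set.mem_Icc]
    constructor
    · intro i
      fin_cases i
      · exact a1
      · exact b1
      · exact c1
      · exact d1
    · intro i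
      fin_cases i
      · exact a2
      · exact b2
      · exact c2
      · exact d2
  refine (measure_mono e1).trans ?_
  rw [(EuclideanSpace.volume_preserving_symm_measurableEquiv_toLp (Fin 4)).measure_preimage_equiv]
  rw [Real.volume_Icc_pi, Fin.prod_univ_four]
  simp only [hlo, hhi]
  have e2 : (![(x.b.o 0 : ℝ) + 1, (x.b.o 1 : ℝ) + 1, (x.b.T : ℝ) + 1, 2 ^ (h * n) * ((x.w : ℝ) + 1)] : Fin 4 → ℝ) 0 -
      (![(x.b.o 0 : ℝ), (x.b.o 1 : ℝ), (x.b.T : ℝ), 2 ^ (h * n) * (x.w : ℝ)] : Fin 4 → ℝ) 0 = 1 := by simp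
  have e3 : (![(x.b.o 0 : ℝ) + 1, (x.b.o 1 : ℝ) + 1, (x.b.T : ℝ) + 1, 2 ^ (h * n) * ((x.w : ℝ) + 1)] : Fin 4 → ℝ) 1 -
      (![(x.b.o 0 : ℝ), (x.b.o 1 : ℝ), (x.b.T : ℝ), 2 ^ (h * n) * (x.w : ℝ)] : Fin 4 → ℝ) 1 = 1 := by simp
  have e4 : (![(x.b.o 0 : ℝ) + 1, (x.b.o 1 : ℝ) + 1, (x.b.T : ℝ) + 1, 2 ^ (h * n) * ((x.w : ℝ) + 1)] : Fin 4 → ℝ) 2 -
      (![(x.b.o 0 : ℝ), (x.b.o 1 : ℝ), (x.b.T : ℝ), 2 ^ (h * n) * (x.w : ℝ)] : Fin 4 → ℝ) 2 = 1 := by simp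
  have e5 : (![(x.b.o 0 : ℝ) + 1, (x.b.o 1 : ℝ) + 1, (x.b.T : ℝ) + 1, 2 ^ (h * n) * ((x.w : ℝ) + 1)] : Fin 4 → ℝ) 3 -
      (![(x.b.o 0 : ℝ), (x.b.o 1 : ℝ), (x.b.T : ℝ), 2 ^ (h * n) * (x.w : ℝ)] : Fin 4 → ℝ) 3 = 2 ^ (h * n) := by
    simp; ring
  rw [e2, e3, e4, e5]
  simp

/-- the integral over a cell from the pointwise bound -/
theorem lint_cube {h n : ℕ} {x : Nd} {f : E4 → ℂ} {B p : ℝ} (hp : 0 < p) (hB : 0 ≤ B) (hf : ∀ z ∈ cube h n x, ‖f z‖ ≤ B) :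
    ∫⁻ z in cube h n x, ‖f z‖ₑ ^ p ≤ ENNReal.ofReal (B ^ p * 2 ^ (h * n)) := by
  calc ∫⁻ z in cube h n x, ‖f z‖ₑ ^ p ≤ ∫⁻ z in cube h n x, ENNReal.ofReal (B ^ p) := by
        refine setLIntegral_mono measurable_const fun z hz => ?_
        rw [← ENNReal.ofReal_rpow_of_nonneg hB hp.le]
        refine ENNReal.rpow_le_rpow ?_ hp.le
        rw [← ofReal_norm_eq_enorm]
        exact ENNReal.ofReal_le_ofReal (hf z hz)
    _ = ENNReal.ofReal (B ^ p) * volume (cube h n x) := by rw [setLIntegral_const]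
    _ ≤ ENNReal.ofReal (B ^ p) * ENNReal.ofReal (2 ^ (h * n)) := by
        gcongr
        exact vol_cube h n x
    _ = _ := by rw [← ENNReal.ofReal_mul (by positivity)]

/-- **[TOP]** -/
theorem stTOP : StTOP := by
  intro N hN hAMP hWS hCORE ε hε
  have hN0 : 0 < N := by linarith
  set δ : ℝ := min ε 1 with hδdef
  have hδ : 0 < δ := lt_min hε one_pos
  obtain ⟨K, h, hK, h2, hhδ, hcore⟩ := hCORE δ hδ
  have hKr : (1:ℝ) ≤ K := by exact_mod_cast hK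
  have hhε : (h:ℝ) ≤ ε * K := hhδ.trans (by gcongr; exact min_le_left _ _)
  have hhK : h ≤ 2 * K := by
    have h1 : (h:ℝ) ≤ 1 * K := hhδ.trans (by gcongr; exact min_le_right _ _)
    have h3 : (h:ℝ) ≤ ((2 * K : ℕ) : ℝ) := by push_cast; linarith
    exact_mod_cast h3
  refine ⟨K, h, hK, h2, hhε, ?_⟩
  intro M C0 hC0
  obtain ⟨C1, hC1, hamp⟩ := hAMP K h (M + 4) C0 hK (by omega) hhK hC0
  refine ⟨C1, hC1, ?_⟩
  intro c hc
  set C2 : ℝ := max C1 (1 / (8 * c)) with hC2def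
  have hC12 : C1 ≤ C2 := le_max_left _ _
  have hC2 : 1 ≤ C2 := hC1.trans hC12
  have hc2 : 1 / (8 * C2) ≤ c := by
    have h1 : 1 / (8 * c) ≤ C2 := le_max_right _ _
    rw [div_le_iff₀ (by positivity)] at h1
    rw [div_le_iff₀ (by positivity)]
    linarith
  obtain ⟨C', hC', hcore⟩ := hcore C2 hC2
  obtain ⟨Ce, hCe, hen⟩ := energy hWS M C1 hC1
  set p : ℝ := 2 + 2 / N with hpdef
  have hp : 0 < p := by positivity
  set q : ℝ := 1 / N with hqdef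
  have hq : 0 < q := by positivity
  refine ⟨C1 ^ p * C' * C1 ^ q * Ce + 1, by positivity, ?_⟩
  intro n ρ g Λ hD hΛ hKT
  obtain ⟨F, hF0, hF1⟩ := hamp n ρ g hD
  have hT : Tp C1 (M + 4) h K n g (F.a K) := ⟨F.supp, hF1⟩
  have hkt : ∀ (B : Cbx) (U : Finset Nd), B.ok c ((1 / 2 : ℝ) ^ (K * n)) (hh n h K) → (∀ S ∈ U, InB n h K B S) →
      ∑ S ∈ U, F.a K S ^ 2 ≤ C1 * Λ * B.vol ((1 / 2 : ℝ) ^ (K * n)) (hh n h K) :=
    fun B U hB hU => ktop (by linarith) hΛ (hT.anti (Nat.le_add_right M 4)) le_rfl hKT B U hB hU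
  have hKTop : KTop (ampMono hC12 F) (C1 * Λ) := by
    intro B U hB hU
    rw [ampMono_a]
    exact hkt B U (ok_mono hc2 hB) hU
  -- the main inequality, for any bound `E` of the energy
  have main : ∀ E : ℝ, 0 ≤ E → (∀ U : Finset Nd, ∑ S ∈ U, F.a K S ^ 2 ≤ E) →
      ∫⁻ z in Hf K n, ‖pie K n g 0 0 z‖ₑ ^ p ≤
        ENNReal.ofReal (C1 ^ p * 2 ^ (h * n) * (C' * 2 ^ (δ * (K * n)) * (C1 * Λ) ^ q * 2 ^ (4 * K * n) * E)) := by
    intro E hE hU
    have h1 := hcore n (ampMono hC12 F) (C1 * Λ) E (by positivity) hKTop (by rw [ampMono_a]; exact hU) (XX h K n) (fun x hx => by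
      rw [mem_XX] at hx
      exact ⟨hx.1, hx.2.1, hx.2.2.1⟩)
    rw [ampMono_a] at h1
    calc ∫⁻ z in Hf K n, ‖pie K n g 0 0 z‖ₑ ^ p
        ≤ ∫⁻ z in ⋃ x ∈ XX h K n, cube h n x, ‖pie K n g 0 0 z‖ₑ ^ p := lintegral_mono_set (Hf_subset hhK n)
      _ ≤ ∑ x ∈ XX h K n, ∫⁻ z in cube h n x, ‖pie K n g 0 0 z‖ₑ ^ p := lint_biUnion_le _ _ _
      _ ≤ ∑ x ∈ XX h K n, ENNReal.ofReal ((C1 * F.a 0 x) ^ p * 2 ^ (h * n)) := by
          refine Finset.sum_le_sum fun x hx => ?_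
          rw [mem_XX] at hx
          refine lint_cube hp (by have := F.a0 0 x; positivity) ?_
          refine hF0 x hx.1 hx.2.1 hx.2.2.1 hx.2.2.2.1 ?_
          have := hx.2.2.2.2
          have h5 : ((|x.w| * 2 ^ (h * n) : ℤ) : ℝ) ≤ ((2 * 2 ^ (2 * K * n) : ℤ) : ℝ) := by exact_mod_cast this
          push_cast at h5
          exact h5
      _ = ENNReal.ofReal (C1 ^ p * 2 ^ (h * n) * ∑ x ∈ XX h K n, F.a 0 x ^ p) := by
          rw [← ENNReal.ofReal_sum_of_nonneg, Finset.mul_sum]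
          · congr 1
            refine Finset.sum_congr rfl fun x _ => ?_
            rw [Real.mul_rpow (by linarith) (F.a0 0 x)]
            ring
          · intro x _
            have := F.a0 0 x
            positivity
      _ ≤ _ := by
          apply ENNReal.ofReal_le_ofReal
          gcongr
  by_cases hΛ0 : Λ = 0
  · -- no mass at all
    have hz : ∀ U : Finset Nd, ∑ S ∈ U, F.a K S ^ 2 ≤ 0 := by
      intro U
      apply le_of_eq
      refine Finset.sum_eq_zero fun S _ => ?_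
      have h5 := hkt (box1 h n K S) {S} (box1_ok h n K S hc.le) (by
          intro S' hS'
          rw [Finset.mem_singleton] at hS'
          subst hS'
          exact box1_in h n K S')
      rw [Finset.sum_singleton, hΛ0, mul_zero, zero_mul] at h5
      have := sq_nonneg (F.a K S)
      linarith
    refine (main 0 le_rfl hz).trans ?_
    simp
  · have hΛp : 0 < Λ := lt_of_le_of_ne hΛ (Ne.symm hΛ0)
    by_cases hE : enw M K n g = ⊤
    · rw [hE, ENNReal.mul_top]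
      · exact le_top
      · rw [Ne, ENNReal.ofReal_eq_zero, not_le]
        have : 0 < Λ ^ q := Real.rpow_pos_of_pos hΛp _
        positivity
    · have hr : ∀ U : Finset Nd, ∑ S ∈ U, F.a K S ^ 2 ≤ Ce * ((2:ℝ) ^ (h * n + 4 * K * n))⁻¹ * (enw M K n g).toReal := by
        intro U
        have h6 := hen h K n g (F.a K) hhK hT U
        rw [← ENNReal.ofReal_toReal hE, ← ENNReal.ofReal_mul (by positivity)] at h6
        exact (ENNReal.ofReal_le_ofReal_iff (by positivity)).1 h6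
      refine (main _ (by positivity) hr).trans ?_
      calc _ ≤ ENNReal.ofReal ((C1 ^ p * C' * C1 ^ q * Ce + 1) * 2 ^ (ε * (K * n)) * Λ ^ q *
              (enw M K n g).toReal) := by
            apply ENNReal.ofReal_le_ofReal
            rw [Real.mul_rpow (by linarith) hΛ, pow_add]
            have h4 : (2:ℝ) ^ (4 * K * n) ≠ 0 := by positivity
            have h5 : (2:ℝ) ^ (h * n) ≠ 0 := by positivity
            have e1 : C1 ^ p * 2 ^ (h * n) * (C' * 2 ^ (δ * (K * n)) * (C1 ^ q * Λ ^ q) * 2 ^ (4 * K * n) *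
                (Ce * ((2:ℝ) ^ (h * n) * 2 ^ (4 * K * n))⁻¹ * (enw M K n g).toReal)) =
                (C1 ^ p * C' * C1 ^ q * Ce) * 2 ^ (δ * (K * n)) * Λ ^ q * (enw M K n g).toReal := by
              field_simp
            rw [e1]
            have h7 : 0 ≤ (enw M K n g).toReal := ENNReal.toReal_nonneg
            have h8 : (0:ℝ) ≤ Λ ^ q := by positivity
            have h9 : (2:ℝ) ^ (δ * (K * n)) ≤ 2 ^ (ε * (K * n)) := by
              apply Real.rpow_le_rpow_of_exponent_le (by norm_num)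
              have : (0:ℝ) ≤ (K:ℝ) * n := by positivity
              gcongr
              exact min_le_left _ _
            gcongr
            linarith
        _ = _ := by
            rw [ENNReal.ofReal_mul (by positivity), ENNReal.ofReal_toReal hE]

end Vale.Agent.P106.AN.Top
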